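import Vale.Agent.Lib.P090.BapFails

/-!
P090: a countable uniformly discrete metric space whose Lipschitz-free space fails the bounded
approximation property (negative answer to Q1).
-/

namespace Vale.Agent.Results.P090.A_BapFails

open Vale.Agent.Lib.P090

/-- There is a countable metric space `M` with all non-zero distances at least `1` such that, for
every base point `o` and every real `lam`, the Lipschitz-free space of `M` fails the
`lam`-bounded approximation property. -/
theorem result :
    ∃ (M : Type) (_ : MetricSpace M), Countable M ∧ (∀ x y : M, x ≠ y → 1 ≤ dist x y) ∧
      ∀ (o : M) (lam : ℝ), ¬ HasBAP lam (LipFree M o) :=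
  bap_fails

end Vale.Agent.Results.P090.A_BapFails
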