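import Vale.Agent.Lib.P090.BapFails

/-!
P090: a nonempty countable uniformly discrete metric space whose Lipschitz-free space fails the
bounded approximation property, for every choice of the base point (negative answer to Q1).
-/

namespace Vale.Agent.Results.P090.A_BapFailsPointed

open Vale.Agent.Lib.P090

/-- on the empty space the coefficient property holds trivially -/
theorem coeffProp_of_isEmpty (G : Type) [MetricSpace G] [IsEmpty G] (L : ℝ) : CoeffProp G L := by
  intro A δ _
  refine ⟨∅, fun _ _ => 0, fun v => isEmptyElim v, fun v => isEmptyElim v, fun ψ _ => ?_⟩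
  exact ⟨fun v => isEmptyElim v, fun a => isEmptyElim a⟩

/-- There is a nonempty countable metric space `M` with all non-zero distances at least `1` such
that, for every base point `o` and every real `lam`, the Lipschitz-free space of `M` fails the
`lam`-bounded approximation property. -/
theorem result :
    ∃ (M : Type) (_ : MetricSpace M), Nonempty M ∧ Countable M ∧
      (∀ x y : M, x ≠ y → 1 ≤ dist x y) ∧
      ∀ (o : M) (lam : ℝ), ¬ HasBAP lam (LipFree M o) := by
  have hex := fun n : ℕ => exists_hair (n + 8) (by omega)
  choose M hM hne hcount hsep hbdd hfail using hex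
  obtain ⟨G, hG, hGsep, hGcount, hGc⟩ := exists_glue M hne hsep (fun n => ⟨_, hbdd n⟩)
  have key : ∀ lam : ℝ, ¬ CoeffProp G lam := by
    intro lam h1
    obtain ⟨n, hn⟩ := exists_nat_ge (16 * lam)
    have h2 : CoeffProp (M n) lam := hGc lam h1 n
    refine hfail n (h2.mono ?_)
    push_cast
    linarith
  refine ⟨G, hG, ?_, hGcount hcount, hGsep, ?_⟩
  · by_contra hemp
    have : IsEmpty G := not_nonempty_iff.mp hemp
    exact key 0 (coeffProp_of_isEmpty G 0)
  · intro o lam h
    exact key lam (CoeffProp.of_hasBAP o h)

end Vale.Agent.Results.P090.A_BapFailsPointed
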