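import Vale.Agent.Lib.P090.BapFails

/-!
P090: the statement of Q1 (the Lipschitz-free space of every uniformly discrete metric space has
the bounded approximation property) is false.
-/

namespace Vale.Agent.Results.P090.A_BapNotAll

open Vale.Agent.Lib.P090

/-- It is false that for every pointed metric space `(M, o)` which is uniformly discrete (all
non-zero distances are at least some `θ > 0`) there is a real `lam` such that the Lipschitz-free
space of `(M, o)` has the `lam`-bounded approximation property. -/
theorem result :
    ¬ ∀ (M : Type) [MetricSpace M] (o : M),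
        (∃ θ : ℝ, 0 < θ ∧ ∀ x y : M, x ≠ y → θ ≤ dist x y) →
        ∃ lam : ℝ, HasBAP lam (LipFree M o) := by
  intro hall
  have hex := fun n : ℕ => exists_hair (n + 8) (by omega)
  choose M hM hne hcount hsep hbdd hfail using hex
  obtain ⟨G, hG, hGsep, hGcount, hGc⟩ := exists_glue M hne hsep (fun n => ⟨_, hbdd n⟩)
  have key : ∀ lam : ℝ, ¬ CoeffProp G lam := by
    intro lam h1
    obtain ⟨n, hn⟩ := exists_nat_ge (16 * lam)
    have h2 : CoeffProp (M n) lam := hGc lam h1 n
    refine hfail n (h2.mono ?_)
    push_cast
    linarith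
  have hne' : Nonempty G := by
    by_contra hemp
    have : IsEmpty G := not_nonempty_iff.mp hemp
    refine key 0 ?_
    intro A δ _
    refine ⟨∅, fun _ _ => 0, fun v => isEmptyElim v, fun v => isEmptyElim v, fun ψ _ => ?_⟩
    exact ⟨fun v => isEmptyElim v, fun a => isEmptyElim a⟩
  obtain ⟨o⟩ := hne'
  obtain ⟨lam, h⟩ := hall G o ⟨1, one_pos, hGsep⟩
  exact key lam (CoeffProp.of_hasBAP o h)

end Vale.Agent.Results.P090.A_BapNotAll
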