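import Vale.Agent.Lib.P090.BapFails
import Vale.Agent.Lib.P090.Bounded

/-!
P090: bounded uniformly discrete metric spaces (nonempty, countable) whose Lipschitz-free spaces
have arbitrarily large approximation constants, with a matching upper bound of the same order.
-/

namespace Vale.Agent.Results.P090.A_BapSqrtPointed

open Vale.Agent.Lib.P090

/-- For every `l ≥ 8` there is a nonempty countable metric space `M` with all non-zero distances in
`[1, l ^ 2 + 1]` such that, for every base point, the Lipschitz-free space of `M` fails the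
`(l / 16)`-bounded approximation property, while it has the `(1 + √(2 (l ^ 2 + 1)))`-bounded
approximation property. -/
theorem result (l : ℕ) (hl : 8 ≤ l) :
    ∃ (M : Type) (_ : MetricSpace M), Nonempty M ∧ Countable M ∧
      (∀ x y : M, x ≠ y → 1 ≤ dist x y ∧ dist x y ≤ (l : ℝ) ^ 2 + 1) ∧
      ∀ o : M, ¬ HasBAP ((l : ℝ) / 16) (LipFree M o) ∧
        HasBAP (1 + Real.sqrt (2 * ((l : ℝ) ^ 2 + 1))) (LipFree M o) := by
  obtain ⟨M, hM, hne, hcount, hsep, hbdd, hfail⟩ := exists_hair l hl
  refine ⟨M, hM, hne, hcount, fun x y hxy => ⟨hsep x y hxy, hbdd x y⟩,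
    fun o => ⟨fun h => ?_, ?_⟩⟩
  · exact hfail (CoeffProp.of_hasBAP o h)
  · have := hasBAP_of_bounded (M := M) (o := o) 1 ((l : ℝ) ^ 2 + 1) one_pos hsep hbdd
    rwa [div_one] at this

end Vale.Agent.Results.P090.A_BapSqrtPointed
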