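import Vale.Agent.Lib.P090.GGMain
import Vale.Agent.Lib.P090.Bounded

/-!
P090: a countable metric space whose non-zero distances are all equal to 1 or 2 and whose
Lipschitz-free space fails the metric approximation property; its best approximation constant
lies in the interval from 1 + 1/4000 to 3.
-/

namespace Vale.Agent.Results.P090.A_MapFails

open Vale.Agent.Lib.P090

/-- There is a countable metric space `M` all of whose non-zero distances are `1` or `2` such that,
for every base point `o`, the Lipschitz-free space of `M` has the `3`-bounded approximation
property but fails the `lam`-bounded approximation property for every `lam ≤ 1 + 1/4000`; in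
particular it fails the metric approximation property. -/
theorem result :
    ∃ (M : Type) (_ : MetricSpace M), Countable M ∧
      (∀ x y : M, x ≠ y → dist x y = 1 ∨ dist x y = 2) ∧
      ∀ o : M, HasBAP 3 (LipFree M o) ∧
        ∀ lam : ℝ, lam ≤ 1 + 1 / 4000 → ¬ HasBAP lam (LipFree M o) := by
  refine ⟨GGSpace, inferInstance, ?_, ?_, ?_⟩
  · have : Countable ((GGPt × Option (Fin 4 × Bool)) ⊕ (Ordering ⊕ Fin 4 × Bool) × Fin 3) := by
      have : Countable Ordering := by
        refine ⟨⟨fun a => a.ctorIdx, ?_⟩⟩
        intro a b h
        cases a <;> cases b <;> first | rfl | exact absurd h (by decide)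
      have hz : ∀ n : ℕ, Countable (ZMod n) := by
        intro n
        cases n with
        | zero => exact inferInstanceAs (Countable ℤ)
        | succ k => exact inferInstanceAs (Countable (Fin (k + 1)))
      have hp : Countable Nat.Primes := inferInstanceAs (Countable {p : ℕ // p.Prime})
      have : Countable GGPt := inferInstance
      infer_instance
    exact this
  · intro x y hxy
    change graphDist _ x y = 1 ∨ graphDist _ x y = 2
    unfold graphDist
    rw [if_neg hxy]
    split_ifs
    · exact Or.inl rfl
    · exact Or.inr rfl
  · intro o
    constructor
    · have h := hasBAP_of_bounded (M := GGSpace) (o := o) 1 2 one_pos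
        (fun x y hxy => (graphDist_ne _ hxy).1) (fun x y => (graphDist_nonneg_le _ x y).2)
      have e : (1 : ℝ) + Real.sqrt (2 * 2 / 1) = 3 := by
        have : Real.sqrt (2 * 2 / 1) = 2 := by
          rw [show (2 : ℝ) * 2 / 1 = 2 ^ 2 by norm_num]
          exact Real.sqrt_sq (by norm_num)
        rw [this]; norm_num
      rwa [e] at h
    · intro lam hlam h
      refine gg_main o ?_
      intro C hC ε hε
      obtain ⟨T, hT, hn, hu⟩ := h C hC ε hε
      exact ⟨T, hT, hn.trans hlam, hu⟩

end Vale.Agent.Results.P090.A_MapFails
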