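import Vale.Agent.Lib.P090.HellyReal
import Vale.Agent.Lib.P090.Helly
import Vale.Agent.Lib.P090.Bounded

/-!
P090: bounded approximation property of Lipschitz-free spaces over four classes of uniformly
discrete metric spaces: coarsely Helly spaces (real radii), coarsely Helly spaces with integer
distances, roughly geodesic Gromov hyperbolic spaces, and bounded spaces (square-root bound).
-/

namespace Vale.Agent.Results.P090.AllClasses

open Vale.Agent.Lib.P090

/-- The Lipschitz-free space of the pointed metric space `(M, o)` has the `lam`-bounded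
approximation property. -/
def FreeBAP (M : Type*) [MetricSpace M] (o : M) (lam : ℝ) : Prop :=
  HasBAP lam (LipFree M o)

theorem result (M : Type*) [MetricSpace M] (o : M) :
    -- (1) uniformly discrete coarsely Helly spaces
    (∀ θ ξ : ℝ, 0 < θ → 0 ≤ ξ → (∀ x y : M, x ≠ y → θ ≤ dist x y) →
      (∀ (n : ℕ) (c : Fin n → M) (r : Fin n → ℝ), (∀ i, 0 ≤ r i) →
        (∀ i j, dist (c i) (c j) ≤ r i + r j) → ∃ z, ∀ i, dist z (c i) ≤ r i + ξ) →
      FreeBAP M o (1 + 2 * ξ / θ)) ∧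
    -- (2) integer distances, natural radii
    (∀ ξ : ℕ, (∀ x y : M, ∃ n : ℕ, dist x y = n) →
      (∀ (n : ℕ) (c : Fin n → M) (r : Fin n → ℕ),
        (∀ i j, dist (c i) (c j) ≤ (r i : ℝ) + (r j : ℝ)) →
          ∃ z, ∀ i, dist z (c i) ≤ (r i : ℝ) + ξ) →
      FreeBAP M o (1 + 2 * ξ)) ∧
    -- (3) uniformly discrete, roughly geodesic, Gromov hyperbolic spaces
    (∀ θ κ σ : ℝ, 0 < θ → 0 ≤ κ + σ → (∀ x y : M, x ≠ y → θ ≤ dist x y) →
      (∀ (x y : M) (s : ℝ), 0 ≤ s → s ≤ dist x y →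
        ∃ p, dist x p ≤ s + σ ∧ dist p y ≤ dist x y - s + σ) →
      (∀ x y z w : M,
        dist x y + dist z w ≤ max (dist x z + dist y w) (dist x w + dist y z) + κ) →
      FreeBAP M o (1 + 2 * (κ + σ) / θ)) ∧
    -- (4) bounded uniformly discrete spaces
    (∀ a b : ℝ, 0 < a → (∀ x y : M, x ≠ y → a ≤ dist x y) → (∀ x y : M, dist x y ≤ b) →
      FreeBAP M o (1 + Real.sqrt (2 * b / a))) :=
  ⟨fun θ ξ hθ hξ hsep hH => hasBAP_of_coarseHelly_real θ ξ hθ hξ hsep hH,
    fun ξ hint hH => hasBAP_of_coarseHelly ξ hint hH,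
    fun θ κ σ hθ hκσ hsep hgeo hhyp => hasBAP_of_hyperbolic_real θ κ σ hθ hκσ hsep hgeo hhyp,
    fun a b ha hsep hdiam => hasBAP_of_bounded a b ha hsep hdiam⟩

end Vale.Agent.Results.P090.AllClasses
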