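import Vale.Agent.Lib.P090.Bounded

/-!
P090: a square-root bound for the approximation constant of Lipschitz-free spaces over bounded
uniformly discrete metric spaces.
-/

namespace Vale.Agent.Results.P090.BoundedSqrt

open Vale.Agent.Lib.P090

/-- If all non-zero distances of the metric space `M` lie in `[a, b]`, `a > 0`, then the
Lipschitz-free space of `M` has the `(1 + √(2 b / a))`-bounded approximation property. -/
theorem result (M : Type*) [MetricSpace M] (o : M) (a b : ℝ) (ha : 0 < a)
    (hsep : ∀ x y : M, x ≠ y → a ≤ dist x y) (hdiam : ∀ x y : M, dist x y ≤ b) :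
    HasBAP (1 + Real.sqrt (2 * b / a)) (LipFree M o) :=
  hasBAP_of_bounded a b ha hsep hdiam

end Vale.Agent.Results.P090.BoundedSqrt
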