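import Vale.Agent.Lib.P090.Helly

/-!
P090: Lipschitz-free spaces over coarsely Helly integer-valued metric spaces have the bounded
approximation property; over Helly ones (for instance Helly graphs) the metric approximation
property.
-/

namespace Vale.Agent.Results.P090.CoarseHelly

open Vale.Agent.Lib.P090

/-- Let `M` be a metric space with integer distances (hence uniformly discrete) such that for every
finite family of balls `B(c i, r i)` with natural radii and `dist (c i) (c j) ≤ r i + r j`, the
balls `B(c i, r i + ξ)` have a common point.  Then the Lipschitz-free space of `M` has the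
`(1 + 2 ξ)`-bounded approximation property (the metric approximation property if `ξ = 0`). -/
theorem result (M : Type*) [MetricSpace M] (o : M) (ξ : ℕ)
    (hint : ∀ x y : M, ∃ n : ℕ, dist x y = n)
    (hH : ∀ (n : ℕ) (c : Fin n → M) (r : Fin n → ℕ),
      (∀ i j, dist (c i) (c j) ≤ (r i : ℝ) + (r j : ℝ)) →
        ∃ z, ∀ i, dist z (c i) ≤ (r i : ℝ) + ξ) :
    HasBAP (1 + 2 * ξ) (LipFree M o) :=
  hasBAP_of_coarseHelly ξ hint hH

end Vale.Agent.Results.P090.CoarseHelly
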