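import Vale.Agent.Lib.P090.Hyperbolic

/-!
P090: the Lipschitz-free space over the vertex set of any Gromov hyperbolic graph (no local
finiteness assumed) has the bounded approximation property.
-/

namespace Vale.Agent.Results.P090.Hyperbolic

open Vale.Agent.Lib.P090

/-- Let `M` be a metric space with integer distances (hence uniformly discrete) which is discretely
geodesic and satisfies Gromov's four-point inequality with additive constant `κ`.  Then the
Lipschitz-free space of `M` has the `(1 + 2 κ)`-bounded approximation property. -/
theorem result (M : Type*) [MetricSpace M] (o : M) (κ : ℕ)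
    (hint : ∀ x y : M, ∃ n : ℕ, dist x y = n)
    (hgeo : ∀ (x y : M) (k : ℕ), (k : ℝ) ≤ dist x y →
      ∃ p, dist x p = k ∧ dist p y = dist x y - k)
    (hhyp : ∀ x y z w : M,
      dist x y + dist z w ≤ max (dist x z + dist y w) (dist x w + dist y z) + κ) :
    HasBAP (1 + 2 * κ) (LipFree M o) :=
  hasBAP_of_hyperbolic κ hint hgeo hhyp

end Vale.Agent.Results.P090.Hyperbolic
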